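import Mathlib.LinearAlgebra.ExteriorPower.Basic
import Mathlib.LinearAlgebra.CliffordAlgebra.Contraction
import Vale.Agent.P181.H280.Defs

set_option autoImplicit false

/-!
# P181, FL: flat shapes (theorem of helper612, board 14710): literals

`a` even, `b = q a`, `lam_0 ≤ (q + 1) a`: Foulkes' inequality.
-/

open scoped BigOperators

namespace Vale.Agent.P181.FL

open Finset
open Vale.Agent.P181.H280 (plethMult)

/-- The positions: slot, block, place in the block. -/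
abbrev Pos (N q m : ℕ) : Type := (Fin N × Fin q) × Fin m

/-- The cells of the diagram: row, column. -/
abbrev Cell {n : ℕ} (lam : Fin n → ℕ) : Type := Σ i : Fin n, Fin (lam i)

/-- Functions on words which are highest weight vectors of weight `lam`. -/
structure HWW {P : Type} [Fintype P] [DecidableEq P] {n : ℕ} (lam : Fin n → ℕ)
    (f : (P → Fin n) → ℂ) : Prop where
  wt : ∀ w, f w ≠ 0 → ∀ i, #{p | w p = i} = lam i
  hw : ∀ i k : Fin n, i < k → ∀ w,
    ∑ p, (if w p = i then f (Function.update w p k) else 0) = 0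

/-- All the column antisymmetrisations vanish. -/
def ColZ {P : Type} [Fintype P] [DecidableEq P] {n : ℕ} (lam : Fin n → ℕ)
    (f : (P → Fin n) → ℂ) : Prop :=
  ∀ l : P ≃ Cell lam, ∑ g : Equiv.Perm (Cell lam),
    (if ∀ c, ((g c).2 : ℕ) = (c.2 : ℕ) then
      ((Equiv.Perm.sign g : ℤ) : ℂ) * f (fun p => (g (l p)).1) else 0) = 0

/-- **(CAP)** a highest weight vector with vanishing column antisymmetrisations is zero. -/
def CapStmt : Prop :=
  ∀ (n : ℕ) (lam : Fin n → ℕ) (P : Type) [Fintype P] [DecidableEq P] (f : (P → Fin n) → ℂ),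
    Antitone lam → HWW lam f → ColZ lam f → ∀ w, f w = 0

/-- The symplectic form. -/
noncomputable def om (h : ℕ) : ExteriorAlgebra ℂ (Fin h ⊕ Fin h → ℂ) :=
  ∑ i : Fin h, ExteriorAlgebra.ι ℂ (Pi.single (Sum.inl i) 1) *
    ExteriorAlgebra.ι ℂ (Pi.single (Sum.inr i) 1)

/-- **(HL)** hard Lefschetz in the exterior algebra. -/
def HLStmt : Prop :=
  ∀ (h p k : ℕ), p + k = h → ∀ K ∈ (⋀[ℂ]^(p + 2 * k) (Fin h ⊕ Fin h → ℂ)),
    ∃ H ∈ (⋀[ℂ]^p (Fin h ⊕ Fin h → ℂ)), om h ^ k * H = K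

/-- **(POW)** the power series lemma. -/
def PowStmt : Prop :=
  ∀ (R : Type) [CommRing R] [Algebra ℂ R] (A B : Submodule ℂ R) (q N : ℕ) (F₀ : R)
    (T : MultilinearMap ℂ (fun _ : Fin N => R) ℂ), 1 ≤ q → F₀ ∈ A → A ^ q ≤ B →
    (∀ K ∈ B, ∃ H ∈ A, F₀ ^ (q - 1) * H = K) → (∀ F ∈ A, T (fun _ => F ^ q) = 0) →
    ∀ K ∈ B, T (fun _ => K) = 0

/-- **(KAP)** functions on words in `M = (q + 1) m` odd letters which kill all the `q`-th powers
are zero (to be proved from `HLStmt` and `PowStmt`). -/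
def DomStmt : Prop :=
  ∀ (N q m : ℕ) (kap : (Pos N q m → Fin ((q + 1) * m)) → ℂ), Even m → 1 ≤ q →
    (∀ g : Equiv.Perm (Pos N q m), (∀ p, (g p).1.1 = p.1.1) →
      ∀ c, kap (fun p => c (g p)) = ((Equiv.Perm.sign g : ℤ) : ℂ) * kap c) →
    (∀ (e : Equiv.Perm (Fin N)) (c), kap (fun p => c ((e p.1.1, p.1.2), p.2)) = kap c) →
    (∀ c : Pos N q m → Fin ((q + 1) * m),
      ∑ g : Equiv.Perm (Fin N × Fin q), kap (fun p => c (g p.1, p.2)) = 0) →
    ∀ c, kap c = 0

/-- **(WORD)** the same for even letters and a highest weight vector of a flat shape (to be proved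
from `CapStmt` and `DomStmt`). -/
def WordStmt : Prop :=
  ∀ (N q m n : ℕ) (lam : Fin n → ℕ) (f : (Pos N q m → Fin n) → ℂ), Even m → 1 ≤ q →
    Antitone lam → (∀ i, lam i ≤ (q + 1) * m) → HWW lam f →
    (∀ g : Equiv.Perm (Pos N q m), (∀ p, (g p).1.1 = p.1.1) →
      ∀ w, f (fun p => w (g p)) = f w) →
    (∀ (e : Equiv.Perm (Fin N)) (w), f (fun p => w ((e p.1.1, p.1.2), p.2)) = f w) →
    (∀ w : Pos N q m → Fin n,
      ∑ g : Equiv.Perm (Fin N × Fin q), f (fun p => w (g p.1, p.2)) = 0) →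
    ∀ w, f w = 0

/-- **(FLAT)** Foulkes' inequality for flat shapes (to be proved from `WordStmt`; `n = a` first,
`H530.zero_stmt` and `H530.pad_stmt` for the general case). -/
def FlatStmt : Prop :=
  ∀ (a q n : ℕ) (lam : Fin n → ℕ), Even a → 1 ≤ q → (∀ i, lam i ≤ (q + 1) * a) →
    plethMult a (q * a) n lam ≤ plethMult (q * a) a n lam

end Vale.Agent.P181.FL
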